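import Vale.Agent.P211Z.Pull1
import Vale.Agent.P210.R2.H53.Defs

/-! The curvature of the connection in a chart (a copy of the first part of `P211Z/Chart.lean`,
without its other imports). -/

set_option maxSynthPendingDepth 3
set_option linter.unusedSectionVars false

namespace Vale.Agent.P253Lc

open scoped Manifold ContDiff Topology
open Bundle Filter VectorField IsManifold Vale.Agent.P211 Vale.Agent.P211.NN
open Vale.Agent.P210.R2.H53 Vale.Agent.P211Z

noncomputable section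

section formal

variable {𝒪 V : Type*} [CommRing 𝒪] [Algebra ℝ 𝒪] [AddCommGroup V] [Module 𝒪 V] (G : LC 𝒪 V)

theorem lc_g_sub_right (X Y Z : V) : G.g X (Y - Z) = G.g X Y - G.g X Z := by
  rw [G.g_symm, G.g_sub_left, G.g_symm Y, G.g_symm Z]

theorem lc_koszul (A B C : V) : 2 * G.g (G.nab A B) C = G.D A (G.g B C) + G.D B (G.g A C)
    - G.D C (G.g A B) + G.g (G.brk A B) C - G.g (G.brk A C) B - G.g (G.brk B C) A := by
  simp only [LC.brk, G.g_sub_left, G.metric]
  rw [G.g_symm B (G.nab A C), G.g_symm A (G.nab B C), G.g_symm A (G.nab C B)]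
  ring

theorem lc_sect (A B : V) : 2 * G.Rm A B B A = 2 * G.D B (G.D A (G.g A B))
    - G.D A (G.D A (G.g B B)) - G.D B (G.D B (G.g A A))
    + 2 * G.g (G.nab A B) (G.nab A B) - 2 * G.g (G.nab A A) (G.nab B B)
    + 2 * (G.D (G.brk A B) (G.g A B) + G.D A (G.g (G.brk A B) B) - G.D B (G.g (G.brk A B) A)
      - G.g (G.brk A B) (G.nab A B) - G.g (G.nab (G.brk A B) B) A) := by
  have h1 : G.g (G.nab B B) A + G.g (G.nab B B) A = G.D B (G.g A B) + G.D B (G.g A B)
      - G.D A (G.g B B) + (G.g (G.brk A B) B + G.g (G.brk A B) B) := by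
    simp only [LC.brk, G.g_sub_left, G.metric]
    rw [G.g_symm A (G.nab B B), G.g_symm B (G.nab A B)]
    ring
  have h2 : G.g (G.nab A B) A + G.g (G.nab A B) A = G.D B (G.g A A)
      + (G.g (G.brk A B) A + G.g (G.brk A B) A) := by
    simp only [LC.brk, G.g_sub_left, G.metric]
    rw [G.g_symm A (G.nab B A)]
    ring
  have h3 := congrArg (G.D A) h1
  have h4 := congrArg (G.D B) h2
  simp only [G.D_add, G.D_sub] at h3 h4
  rw [G.metric A (G.nab B B) A] at h3
  rw [G.metric B (G.nab A B) A] at h4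
  have h5 := G.D_brk A B (G.g A B)
  have h6 : G.g (G.brk A B) (G.nab A B) = G.g (G.nab A B) (G.nab A B)
      - G.g (G.nab A B) (G.nab B A) := by
    rw [LC.brk, G.g_sub_left, G.g_symm (G.nab B A)]
  rw [LC.Rm, LC.R, G.g_sub_left, G.g_sub_left, G.g_symm (G.nab A A), h5, h6]
  linear_combination h3 - h4

end formal

variable {E : Type} [NormedAddCommGroup E] [NormedSpace ℝ E] [FiniteDimensional ℝ E]
  {M : Type} [MetricSpace M] [ChartedSpace E M] [IsManifold 𝓘(ℝ, E) ∞ M]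
  [RiemannianBundle fun p : M => TangentSpace 𝓘(ℝ, E) p]
  [IsContMDiffRiemannianBundle 𝓘(ℝ, E) ∞ E fun p : M => TangentSpace 𝓘(ℝ, E) p]
  {e : OpenPartialHomeomorph M E}

theorem mdifferentiable_chart (he : e ∈ maximalAtlas 𝓘(ℝ, E) ∞ M) :
    e.MDifferentiable 𝓘(ℝ, E) 𝓘(ℝ, E) :=
  ⟨(contMDiffOn_of_mem_maximalAtlas he).mdifferentiableOn (by simp),
    (contMDiffOn_symm_of_mem_maximalAtlas he).mdifferentiableOn (by simp)⟩

theorem chart_ld (he : e ∈ maximalAtlas 𝓘(ℝ, E) ∞ M) {q : M} (hq : q ∈ e.source) :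
    IsLocalDiffeomorphAt 𝓘(ℝ, E) 𝓘(ℝ, E) ∞ e q :=
  ⟨⟨e.toPartialEquiv, e.open_source, e.open_target, contMDiffOn_of_mem_maximalAtlas he,
    contMDiffOn_symm_of_mem_maximalAtlas he⟩, hq, Set.eqOn_refl _ _⟩

/-- constant fields on the model space -/
def cst (a : E) : Field E E := fun _ => a

theorem sm_cst (a z : E) : Sm (cst a) z :=
  ((contMDiff_vectorSpace_iff_contDiff (V := fun z : E => (a : TangentSpace 𝓘(ℝ, E) z))).2
    contDiff_const) z

/-- the coordinate vector -/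
def ds (e : OpenPartialHomeomorph M E) (z a : E) : TangentSpace 𝓘(ℝ, E) (e.symm z) :=
  mfderiv 𝓘(ℝ, E) 𝓘(ℝ, E) e.symm z a

theorem cm_eq (e : OpenPartialHomeomorph M E) (z a b : E) :
    chartMetric e z a b = inner ℝ (ds e z a) (ds e z b) := rfl

theorem pull_cst (he : e ∈ maximalAtlas 𝓘(ℝ, E) ∞ M) {z : E} (hz : z ∈ e.target) (a : E) :
    pull e (cst a) (e.symm z) = ds e z a := by
  refine ((inv_of_ld (chart_ld he (e.map_target hz))).inverse_apply_eq).mpr ?_
  exact (congrArg (fun T => T a) ((mdifferentiable_chart he).comp_symm_deriv hz)).symm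

/-- global fields which near `e.symm z` are the coordinate fields -/
def IsCoord (e : OpenPartialHomeomorph M E) (z : E) (C : E → SmoothField E M) : Prop :=
  ∀ a, ∀ᶠ q in 𝓝 (e.symm z), C a q = pull e (cst a) q

theorem exists_coord (he : e ∈ maximalAtlas 𝓘(ℝ, E) ∞ M) {z : E} (hz : z ∈ e.target) :
    ∃ C, IsCoord e z C := by
  have h : ∀ a : E, ∃ X : SmoothField E M, ∀ᶠ q in 𝓝 (e.symm z), X q = pull e (cst a) q :=
    fun a => cut_section (E := E) (e.open_source.mem_nhds (e.map_target hz))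
      (σ := pull e (cst a))
      (fun q hq => ContMDiffAt.contMDiffWithinAt (Sm.pull (chart_ld he hq) (sm_cst a _)))
  choose C hC using h
  exact ⟨C, hC⟩

variable {z : E} {C : E → SmoothField E M}

theorem IsCoord.ev (he : e ∈ maximalAtlas 𝓘(ℝ, E) ∞ M) (hz : z ∈ e.target) (h : IsCoord e z C)
    (a : E) : ∀ᶠ y in 𝓝 z, C a (e.symm y) = ds e y a := by
  filter_upwards [(e.continuousAt_symm hz).tendsto.eventually (h a), e.open_target.mem_nhds hz]
    with y h1 h2
  rw [h1, pull_cst he h2]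

theorem IsCoord.g (he : e ∈ maximalAtlas 𝓘(ℝ, E) ∞ M) (hz : z ∈ e.target) (h : IsCoord e z C)
    (a b : E) : (fun y => gVF (C a) (C b) (e.symm y)) =ᶠ[𝓝 z] fun y => chartMetric e y a b := by
  filter_upwards [h.ev he hz a, h.ev he hz b] with y h1 h2
  rw [gVF_apply, h1, h2]
  rfl

theorem IsCoord.d (he : e ∈ maximalAtlas 𝓘(ℝ, E) ∞ M) (hz : z ∈ e.target) (h : IsCoord e z C)
    (a : E) (f : SF E M) : (fun y => DVF (C a) f (e.symm y)) =ᶠ[𝓝 z]
      fun y => fderiv ℝ (fun x => f (e.symm x)) y a := by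
  filter_upwards [h.ev he hz a, e.open_target.mem_nhds hz] with y h1 h2
  rw [DVF_apply, h1]
  refine (mvfderiv_comp_apply y (f.mdiff _)
    ((mdifferentiable_chart he).mdifferentiableAt_symm h2) a).symm.trans ?_
  rw [mvfderiv, mfderiv_eq_fderiv]
  rfl

theorem IsCoord.dg (he : e ∈ maximalAtlas 𝓘(ℝ, E) ∞ M) (hz : z ∈ e.target) (h : IsCoord e z C)
    (u a b : E) : (fun y => DVF (C u) (gVF (C a) (C b)) (e.symm y)) =ᶠ[𝓝 z]
      fun y => fderiv ℝ (fun x => chartMetric e x a b) y u := by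
  filter_upwards [h.d he hz u (gVF (C a) (C b)), (h.g he hz a b).eventuallyEq_nhds] with y h1 h2
  rw [h1, h2.fderiv_eq]

theorem IsCoord.ddg (he : e ∈ maximalAtlas 𝓘(ℝ, E) ∞ M) (hz : z ∈ e.target) (h : IsCoord e z C)
    (v u a b : E) : DVF (C v) (DVF (C u) (gVF (C a) (C b))) (e.symm z)
      = fderiv ℝ (fun y => fderiv ℝ (fun x => chartMetric e x a b) y u) z v := by
  rw [(h.d he hz v _).eq_of_nhds, (h.dg he hz u a b).fderiv_eq]

variable {cov : CovariantDerivative 𝓘(ℝ, E) E (TangentSpace 𝓘(ℝ, E) : M → Type)}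

theorem IsCoord.brk (hc : IsLC cov) (he : e ∈ maximalAtlas 𝓘(ℝ, E) ∞ M) (hz : z ∈ e.target)
    (h : IsCoord e z C) (a b : E) :
    ∀ᶠ q in 𝓝 (e.symm z), (lcOf hc).brk (C a) (C b) q = 0 := by
  filter_upwards [(h a).eventually_nhds, (h b).eventually_nhds,
    e.open_source.mem_nhds (e.map_target hz)] with q h1 h2 h3
  refine (congrFun (brk_coe hc (C a) (C b)) q).trans ?_
  rw [Filter.EventuallyEq.mlieBracket_vectorField_eq h1 h2,
    pull_bracket (chart_ld he h3) (sm_cst a _).md (sm_cst b _).md]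
  have h4 : mlieBracket 𝓘(ℝ, E) (cst a) (cst b) (e q) = 0 := by
    rw [← mlieBracketWithin_univ, mlieBracketWithin_eq_lieBracketWithin]
    change fderivWithin ℝ (fun _ : E => b) Set.univ (e q) a
      - fderivWithin ℝ (fun _ : E => a) Set.univ (e q) b = (0 : E)
    simp
  change (dm E e q).inverse (mlieBracket 𝓘(ℝ, E) (cst a) (cst b) (e q)) = 0
  rw [h4, map_zero]

/-- the Christoffel symbols of the connection -/
def gam (hc : IsLC cov) (e : OpenPartialHomeomorph M E) (z : E) (C : E → SmoothField E M)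
    (a b : E) : E :=
  mfderiv 𝓘(ℝ, E) 𝓘(ℝ, E) e (e.symm z) (nabVF cov hc.smooth (C a) (C b) (e.symm z))

theorem symm_gam (hc : IsLC cov) (he : e ∈ maximalAtlas 𝓘(ℝ, E) ∞ M) (hz : z ∈ e.target)
    (a b : E) : ds e z (gam hc e z C a b)
      = nabVF cov hc.smooth (C a) (C b) (e.symm z) := by
  rw [← pull_cst he hz]
  exact (inv_of_ld (chart_ld he (e.map_target hz))).inverse_apply_self _

theorem g_zero {X : VF E M} {p : M} (h : X p = 0) (Y : VF E M) : gVF X Y p = 0 := by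
  rw [gVF_apply, h, inner_zero_left]

theorem IsCoord.christoffel (hc : IsLC cov) (he : e ∈ maximalAtlas 𝓘(ℝ, E) ∞ M)
    (hz : z ∈ e.target) (h : IsCoord e z C) : IsChristoffel e z (gam hc e z C) := by
  intro u v w
  have h1 := congrArg (evM (e.symm z)) (lc_koszul (lcOf hc) (C u) (C v) (C w))
  simp only [map_mul, map_add, map_sub, map_ofNat] at h1
  have h2 : 2 * gVF (nabVF cov hc.smooth (C u) (C v)) (C w) (e.symm z)
    = DVF (C u) (gVF (C v) (C w)) (e.symm z) + DVF (C v) (gVF (C u) (C w)) (e.symm z)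
      - DVF (C w) (gVF (C u) (C v)) (e.symm z) + gVF ((lcOf hc).brk (C u) (C v)) (C w) (e.symm z)
      - gVF ((lcOf hc).brk (C u) (C w)) (C v) (e.symm z)
      - gVF ((lcOf hc).brk (C v) (C w)) (C u) (e.symm z) := h1
  rw [g_zero (h.brk hc he hz u v).self_of_nhds, g_zero (h.brk hc he hz u w).self_of_nhds,
    g_zero (h.brk hc he hz v w).self_of_nhds, (h.dg he hz u v w).eq_of_nhds,
    (h.dg he hz v u w).eq_of_nhds, (h.dg he hz w u v).eq_of_nhds, gVF_apply,
    ← symm_gam hc he hz, (h.ev he hz w).self_of_nhds] at h2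
  rw [cm_eq]
  linarith

theorem IsCoord.sect (hc : IsLC cov) (he : e ∈ maximalAtlas 𝓘(ℝ, E) ∞ M)
    (hz : z ∈ e.target) (h : IsCoord e z C) (a b : E) :
    Rm cov (C a) (C b) (C b) (C a) (e.symm z) = sectNum e z (gam hc e z C) a b := by
  have h0 : Rm cov (C a) (C b) (C b) (C a) (e.symm z)
      = (lcOf hc).Rm (C a) (C b) (C b) (C a) (e.symm z) :=
    congrFun (riem_eq hc (C a) (C b) (C b) (C a)) (e.symm z)
  have h1 := congrArg (evM (e.symm z)) (lc_sect (lcOf hc) (C a) (C b))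
  simp only [map_mul, map_add, map_sub, map_ofNat] at h1
  set T := (lcOf hc).brk (C a) (C b) with hT
  have h2 : 2 * (lcOf hc).Rm (C a) (C b) (C b) (C a) (e.symm z)
    = 2 * DVF (C b) (DVF (C a) (gVF (C a) (C b))) (e.symm z)
      - DVF (C a) (DVF (C a) (gVF (C b) (C b))) (e.symm z)
      - DVF (C b) (DVF (C b) (gVF (C a) (C a))) (e.symm z)
      + 2 * gVF (nabVF cov hc.smooth (C a) (C b)) (nabVF cov hc.smooth (C a) (C b)) (e.symm z)
      - 2 * gVF (nabVF cov hc.smooth (C a) (C a)) (nabVF cov hc.smooth (C b) (C b)) (e.symm z)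
      + 2 * (DVF T (gVF (C a) (C b)) (e.symm z) + DVF (C a) (gVF T (C b)) (e.symm z)
        - DVF (C b) (gVF T (C a)) (e.symm z)
        - gVF T (nabVF cov hc.smooth (C a) (C b)) (e.symm z)
        - gVF (nabVF cov hc.smooth T (C b)) (C a) (e.symm z)) := h1
  have hT0 := h.brk hc he hz a b
  rw [← hT] at hT0
  have hD : ∀ X Y : VF E M, DVF X (gVF T Y) (e.symm z) = 0 := by
    intro X Y
    rw [DVF_local (e.symm z) (gVF T Y) 0 (hT0.mono fun q hq => g_zero hq Y) X]
    exact congrArg (fun f : SF E M => f (e.symm z)) ((lcOf hc).D_zero X)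
  have h3 : DVF T (gVF (C a) (C b)) (e.symm z) = 0 := by
    rw [DVF_apply, hT0.self_of_nhds, map_zero]
  have h4 : nabVF cov hc.smooth T (C b) (e.symm z) = 0 := by
    rw [nabVF_apply, hT0.self_of_nhds, map_zero]
  rw [h3, hD, hD, g_zero hT0.self_of_nhds, g_zero h4, h.ddg he hz, h.ddg he hz, h.ddg he hz,
    gVF_apply, gVF_apply, ← symm_gam hc he hz, ← symm_gam hc he hz, ← symm_gam hc he hz] at h2
  rw [h0]
  unfold sectNum
  rw [cm_eq, cm_eq]
  linarith

end

end Vale.Agent.P253Lc
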