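import Vale.Agent.P253K97.Defs
import Vale.Agent.P211W98.LC
import Vale.Agent.P253.Bdl.B1

/-! The curvature tensor, the Riemannian distance and the real structure of a complex manifold. -/

set_option maxSynthPendingDepth 3
set_option linter.unusedSectionVars false

namespace Vale.Agent.P253K

open scoped Manifold ContDiff Topology ENNReal
open Bundle Filter VectorField IsManifold

noncomputable section

/-- a function of four vectors which is linear in each of them -/
def mk4 {V : Type} [AddCommGroup V] [Module ℝ V] (f : V → V → V → V → ℝ)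
    (h1 : ∀ b c d, IsLinearMap ℝ fun a => f a b c d) (h2 : ∀ a c d, IsLinearMap ℝ fun b => f a b c d)
    (h3 : ∀ a b d, IsLinearMap ℝ fun c => f a b c d)
    (h4 : ∀ a b c, IsLinearMap ℝ fun d => f a b c d) : V →ₗ[ℝ] V →ₗ[ℝ] V →ₗ[ℝ] V →ₗ[ℝ] ℝ :=
  LinearMap.mk₂ ℝ (fun a b => LinearMap.mk₂ ℝ (f a b) (fun c c' d => (h3 a b d).1 c c')
      (fun t c d => (h3 a b d).2 t c) (fun c d d' => (h4 a b c).1 d d')
      (fun t c d => (h4 a b c).2 t d))
    (fun a a' b => LinearMap.ext₂ fun c d => (h1 b c d).1 a a')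
    (fun t a b => LinearMap.ext₂ fun c d => (h1 b c d).2 t a)
    (fun a b b' => LinearMap.ext₂ fun c d => (h2 a c d).1 b b')
    (fun t a b => LinearMap.ext₂ fun c d => (h2 a c d).2 t b)

variable {E : Type} [NormedAddCommGroup E] [NormedSpace ℂ E] [FiniteDimensional ℂ E]

theorem realSmooth {M : Type} [TopologicalSpace M] [ChartedSpace E M]
    [IsManifold 𝓘(ℂ, E) 1 M] : RealSmooth E M := by
  refine isManifold_of_contDiffOn 𝓘(ℝ, E) ∞ M fun e e' he he' => ?_
  have h := compatible_of_mem_maximalAtlas (subset_maximalAtlas (I := 𝓘(ℂ, E)) (n := 1) he)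
    (subset_maximalAtlas he')
  have h1 : ContDiffOn ℂ 1 (e' ∘ e.symm) (e.symm.trans e').source := by
    rw [contDiffGroupoid, mem_groupoid_of_pregroupoid] at h
    have h2 := h.1
    simpa [contDiffPregroupoid] using! h2
  have h2 := (P253.Mfd.contDiffOn_of_differentiableOn_complex (e.symm.trans e').open_source
    (h1.differentiableOn (by simp))).restrict_scalars ℝ
  simpa using! h2

theorem complete_of {M : Type} [MetricSpace M] [ChartedSpace E M] [Met E M]
    [IsRiemannianManifold 𝓘(ℝ, E) M] (h : Complete E M) : CompleteSpace M := by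
  refine EMetric.complete_of_cauchySeq_tendsto fun u hu => h u fun ε hε => ?_
  obtain ⟨N, hN⟩ := EMetric.cauchySeq_iff.1 hu ε hε
  exact ⟨N, fun i hi j hj => IsRiemannianManifold.out (I := 𝓘(ℝ, E)) (u i) (u j) ▸ hN i hi j hj⟩

theorem with_metric {M : Type} [t : TopologicalSpace M] [T2Space M] [ConnectedSpace M]
    [ChartedSpace E M] [RealSmooth E M] [Met E M] [SmoothMet E M] :
    ∃ m : MetricSpace M, m.toUniformSpace.toTopologicalSpace = t ∧ ∀ x y : M,
      @edist M m.toEDist x y = @Manifold.riemannianEDist E _ _ E _ 𝓘(ℝ, E) M t _ _ x y := by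
  have : IsContinuousRiemannianBundle E fun p : M => TangentSpace 𝓘(ℝ, E) p := by
    obtain ⟨g, g1, g2⟩ := IsContMDiffRiemannianBundle.exists_contMDiff (IB := 𝓘(ℝ, E)) (n := ∞)
      (F := E) (E := fun p : M => TangentSpace 𝓘(ℝ, E) p)
    exact ⟨g, g1.continuous, g2⟩
  have : ProperSpace E := FiniteDimensional.proper_real E
  have : LocallyCompactSpace M := ChartedSpace.locallyCompactSpace E M
  let eN : EMetricSpace M := EMetricSpace.ofRiemannianMetric 𝓘(ℝ, E) M
  have hfin : ∀ x y : M, edist x y ≠ ⊤ := by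
    intro x y
    have h1 : IsClopen (Metric.eball y ⊤) := ⟨Metric.isClosed_eball_top, Metric.isOpen_eball⟩
    have h3 := h1.eq_univ ⟨y, Metric.mem_eball_self (by simp)⟩
    have h4 : x ∈ Metric.eball y ⊤ := h3 ▸ Set.mem_univ x
    exact ne_of_lt h4
  exact ⟨EMetricSpace.toMetricSpace hfin, rfl, fun _ _ => rfl⟩

variable {M : Type} [TopologicalSpace M] [ChartedSpace E M] [T2Space M]
  [RealSmooth E M] [Met E M] [SmoothMet E M] {cov : Conn E M}

theorem IsLeviCivita.w (h : IsLeviCivita cov) : P211W.IsLeviCivita cov :=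
  ⟨h.smooth, h.torsion, h.metric⟩

theorem IsLeviCivita.lc (h : IsLeviCivita cov) : P211.IsLC cov :=
  ⟨h.smooth, fun X Y x => ((CovariantDerivative.torsion_eq_zero_iff cov).1 h.torsion)
      (P211.VF.mdiff X x) (P211.VF.mdiff Y x),
    fun X Y Z x => h.metric.mvfderiv_inner_eq X (P211.VF.mdiff Y x) (P211.VF.mdiff Z x)⟩

theorem exists_lc : ∃ cov : Conn E M, IsLeviCivita cov := by
  obtain ⟨D, hD⟩ := P211W.exists_lc (E := E) (M := M)
  exact ⟨D, hD.smooth, hD.torsion, hD.metric⟩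

theorem lc_unique {cov' : Conn E M} (h : IsLeviCivita cov) (h' : IsLeviCivita cov')
    (Y : Vec E M) : cov' Y = cov Y :=
  funext fun x => P211W.lc_unique h'.w h.w (P211.VF.mdiff Y x)

theorem lin_congr (Φ : P211.VF E M →ₗ[P211.SF E M] P211.SF E M) {p : M} {X X' : P211.VF E M}
    (h : X p = X' p) : Φ X p = Φ X' p := by
  have h1 := P211.lin_ptwise Φ (x := p) (Z := X - X')
    (by rw [ContMDiffSection.coe_sub, Pi.sub_apply, h, sub_self])
  rw [map_sub] at h1
  exact sub_eq_zero.1 h1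

theorem lin_ext (Φ : P211.VF E M →ₗ[P211.SF E M] P211.SF E M) {p : M}
    {s : Tan E p → P211.VF E M} (hs : ∀ a, s a p = a) : IsLinearMap ℝ fun a => Φ (s a) p := by
  refine ⟨fun a b => ?_, fun t a => ?_⟩
  · rw [lin_congr Φ (X' := s a + s b)
      (by rw [ContMDiffSection.coe_add, Pi.add_apply, hs, hs, hs]), map_add]
    rfl
  · have ht : (algebraMap ℝ (P211.SF E M) t) p = t := (P211.evM (E := E) p).commutes t
    rw [lin_congr Φ (X' := algebraMap ℝ (P211.SF E M) t • s a)
      (by rw [P211.smulVF_apply, hs, hs, ht]), map_smul]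
    change (algebraMap ℝ (P211.SF E M) t) p * Φ (s a) p = t * Φ (s a) p
    rw [ht]

section T4

variable {T : P211.VF E M → P211.VF E M → P211.VF E M → P211.VF E M → P211.SF E M}
  (h : P211.IsT4 T)

/-- first slot -/
def L1 (Y Z W : P211.VF E M) : P211.VF E M →ₗ[P211.SF E M] P211.SF E M :=
  ⟨⟨fun X => T X Y Z W, fun a b => h.add1 a b Y Z W⟩, fun a b => h.smul1 a b Y Z W⟩

/-- second slot -/
def L2 (X Z W : P211.VF E M) : P211.VF E M →ₗ[P211.SF E M] P211.SF E M :=
  ⟨⟨fun Y => T X Y Z W, fun a b => h.add2 X a b Z W⟩, fun a b => h.smul2 a X b Z W⟩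

/-- third slot -/
def L3 (X Y W : P211.VF E M) : P211.VF E M →ₗ[P211.SF E M] P211.SF E M :=
  ⟨⟨fun Z => T X Y Z W, fun a b => h.add3 X Y a b W⟩, fun a b => h.smul3 a X Y b W⟩

/-- fourth slot -/
def L4 (X Y Z : P211.VF E M) : P211.VF E M →ₗ[P211.SF E M] P211.SF E M :=
  ⟨⟨fun W => T X Y Z W, fun a b => h.add4 X Y Z a b⟩, fun a b => h.smul4 a X Y Z b⟩

include h in
theorem t4_pt {X Y Z W X' Y' Z' W' : P211.VF E M} {p : M} (hX : X p = X' p) (hY : Y p = Y' p)
    (hZ : Z p = Z' p) (hW : W p = W' p) : T X Y Z W p = T X' Y' Z' W' p :=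
  ((lin_congr (L1 h Y Z W) hX).trans (lin_congr (L2 h X' Z W) hY)).trans
    ((lin_congr (L3 h X' Y' W) hZ).trans (lin_congr (L4 h X' Y' Z') hW))

include h in
theorem t4_ex : ∃ R : Four E M, ∀ (X Y Z W : P211.VF E M) (p : M),
    R p (X p) (Y p) (Z p) (W p) = T X Y Z W p := by
  choose s hs using fun (p : M) (a : Tan E p) => P211.exists_ext (E := E) p a
  exact ⟨fun p => mk4 (fun a b c d => T (s p a) (s p b) (s p c) (s p d) p)
      (fun b c d => lin_ext (L1 h (s p b) (s p c) (s p d)) (hs p))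
      (fun a c d => lin_ext (L2 h (s p a) (s p c) (s p d)) (hs p))
      (fun a b d => lin_ext (L3 h (s p a) (s p b) (s p d)) (hs p))
      (fun a b c => lin_ext (L4 h (s p a) (s p b) (s p c)) (hs p)),
    fun X Y Z W p => t4_pt h (hs p _) (hs p _) (hs p _) (hs p _)⟩

end T4

theorem IsCurv.unique {R R' : Four E M} (h : IsCurv cov R) (h' : IsCurv cov R') : R = R' := by
  funext p
  ext a b c d
  obtain ⟨X, rfl⟩ := P211.exists_ext (E := E) p a
  obtain ⟨Y, rfl⟩ := P211.exists_ext (E := E) p b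
  obtain ⟨Z, rfl⟩ := P211.exists_ext (E := E) p c
  obtain ⟨W, rfl⟩ := P211.exists_ext (E := E) p d
  exact (h X Y Z W p).trans (h' X Y Z W p).symm

theorem curv_exu (hD : IsLeviCivita cov) : ∃! Rm : Four E M, IsCurv cov Rm := by
  obtain ⟨R, hR⟩ := t4_ex (P211.lcOf hD.lc).isT4_Rm
  have key : IsCurv cov R :=
    fun X Y Z W p => (hR X Y Z W p).trans (congrFun (P211.riem_eq hD.lc X Y Z W) p).symm
  exact ⟨R, key, fun R' hR' => hR'.unique key⟩

end

end Vale.Agent.P253K
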