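import Vale.Agent.P253L26.Defs
import Vale.Agent.P253L26.Chart
import Vale.Agent.P211W98.LC
import Vale.Agent.P253.Bdl.B1
import Vale.Agent.P253Z.Stmt

/-! From the notions without charts to the notions in holomorphic charts. -/

set_option maxSynthPendingDepth 3
set_option linter.unusedSectionVars false

namespace Vale.Agent.P253L26

open scoped Manifold ContDiff Topology
open Bundle Filter VectorField IsManifold Complex
open Vale.Agent.P211Z Vale.Agent.P253Lc Vale.Agent.P253.Mfd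

noncomputable section

variable {E : Type} [NormedAddCommGroup E] [NormedSpace ℂ E] [FiniteDimensional ℂ E]
  {M : Type} [MetricSpace M] [ChartedSpace E M] [RealSmooth E M] [Metr E M] [SmoothMetr E M]
  {D : Conn E M} {e : OpenPartialHomeomorph M E} {z : E} {C : E → SmoothField E M}

theorem IsLeviCivita.w (h : IsLeviCivita D) : P211W.IsLeviCivita D :=
  ⟨h.smooth, h.torsion, h.metric⟩

theorem IsLeviCivita.lc (h : IsLeviCivita D) : P211.IsLC D :=
  ⟨h.smooth, fun X Y x => ((CovariantDerivative.torsion_eq_zero_iff D).1 h.torsion)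
      (P211.VF.mdiff X x) (P211.VF.mdiff Y x),
    fun X Y Z x => h.metric.mvfderiv_inner_eq X (P211.VF.mdiff Y x) (P211.VF.mdiff Z x)⟩

theorem cov_congr {Y Y' : Field E M} {p : M} (hY : Md Y' p) (h : ∀ᶠ q in 𝓝 p, Y q = Y' q) :
    D Y p = D Y' p :=
  D.isCovariantDerivativeOnUniv.congr_of_eventuallyEq (hY.congr h) hY univ_mem h

theorem curv_local (hD : IsLeviCivita D) {X' Y' Z' W' : SmoothField E M} {X Y Z W : Field E M}
    {p : M} (hX : ∀ᶠ q in 𝓝 p, X q = X' q) (hY : ∀ᶠ q in 𝓝 p, Y q = Y' q)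
    (hZ : ∀ᶠ q in 𝓝 p, Z q = Z' q) (hW : ∀ᶠ q in 𝓝 p, W q = W' q) :
    curv D X Y Z W p = curv D X' Y' Z' W' p := by
  have h1 : ∀ᶠ q in 𝓝 p, D Z q = D Z' q :=
    hZ.eventually_nhds.mono fun q hq => cov_congr (P211.VF.mdiff Z' q) hq
  have h2 : D (fun q => D Z q (Y q)) p = D (fun q => D Z' q (Y' q)) p := by
    refine cov_congr (P211.VF.mdiff (P211.nabVF D hD.smooth Y' Z') p) ?_
    filter_upwards [hY, h1] with q h3 h4
    rw [h3, h4]
  have h3 : D (fun q => D Z q (X q)) p = D (fun q => D Z' q (X' q)) p := by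
    refine cov_congr (P211.VF.mdiff (P211.nabVF D hD.smooth X' Z') p) ?_
    filter_upwards [hX, h1] with q h3 h4
    rw [h3, h4]
  have h4 : mlieBracket 𝓘(ℝ, E) X Y p = mlieBracket 𝓘(ℝ, E) X' Y' p :=
    Filter.EventuallyEq.mlieBracket_vectorField_eq hX hY
  unfold curv
  rw [h2, h3, h4, h1.self_of_nhds, hX.self_of_nhds, hY.self_of_nhds, hW.self_of_nhds]

theorem lin_congr (Φ : P211.VF E M →ₗ[P211.SF E M] P211.SF E M) {p : M} {X X' : P211.VF E M}
    (h : X p = X' p) : Φ X p = Φ X' p := by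
  have h1 := P211.lin_ptwise Φ (x := p) (Z := X - X')
    (by rw [ContMDiffSection.coe_sub, Pi.sub_apply, h, sub_self])
  rw [map_sub] at h1
  exact sub_eq_zero.1 h1

theorem curv_pt (hD : IsLeviCivita D) {X Y Z W X' Y' Z' W' : SmoothField E M} {p : M}
    (hX : X p = X' p) (hY : Y p = Y' p) (hZ : Z p = Z' p) (hW : W p = W' p) :
    curv D X Y Z W p = curv D X' Y' Z' W' p := by
  have h0 : ∀ A B F G : SmoothField E M, curv D A B F G p = (P211.lcOf hD.lc).Rm A B F G p :=
    fun A B F G => congrFun (P211.riem_eq hD.lc A B F G) p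
  have h := (P211.lcOf hD.lc).isT4_Rm
  set T := (P211.lcOf hD.lc).Rm
  rw [h0, h0]
  exact ((lin_congr ⟨⟨fun X => T X Y Z W, fun a b => h.add1 a b Y Z W⟩,
      fun a b => h.smul1 a b Y Z W⟩ hX).trans
    (lin_congr ⟨⟨fun Y => T X' Y Z W, fun a b => h.add2 X' a b Z W⟩,
      fun a b => h.smul2 a X' b Z W⟩ hY)).trans
    ((lin_congr ⟨⟨fun Z => T X' Y' Z W, fun a b => h.add3 X' Y' a b W⟩,
      fun a b => h.smul3 a X' Y' b W⟩ hZ).trans
    (lin_congr ⟨⟨fun W => T X' Y' Z' W, fun a b => h.add4 X' Y' Z' a b⟩,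
      fun a b => h.smul4 a X' Y' Z' b⟩ hW))

theorem exists_ext {p : M} (a : TangentSpace 𝓘(ℝ, E) p) :
    ∃ X : SmoothField E M, (∀ᶠ q in 𝓝 p, FiberBundle.extend E a q = X q) ∧ a = X p := by
  obtain ⟨s, hs, h⟩ := FiberBundle.exists_contMDiffOn_extend (k := ∞) 𝓘(ℝ, E) E a
  obtain ⟨X, hX⟩ := P211.cut_section (E := E) hs h
  exact ⟨X, hX.mono fun _ h => h.symm,
    (FiberBundle.extend_apply_self E a).symm.trans hX.self_of_nhds.symm⟩

theorem IsLeviCivita.tensor (hD : IsLeviCivita D) : IsTensor D := by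
  intro X Y Z W p
  obtain ⟨X', h1, e1⟩ := exists_ext (X p)
  obtain ⟨Y', h2, e2⟩ := exists_ext (Y p)
  obtain ⟨Z', h3, e3⟩ := exists_ext (Z p)
  obtain ⟨W', h4, e4⟩ := exists_ext (W p)
  exact (curv_pt hD e1 e2 e3 e4).trans (curv_local hD h1 h2 h3 h4).symm

theorem exists_lc : ∃ D : Conn E M, IsLeviCivita D ∧ IsTensor D ∧
    ∀ D', IsLeviCivita D' → Agree D D' := by
  obtain ⟨D, hD⟩ := P211W.exists_lc (E := E) (M := M)
  have h : IsLeviCivita D := ⟨hD.smooth, hD.torsion, hD.metric⟩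
  exact ⟨D, h, h.tensor, fun D' h' Y p => P211W.lc_unique hD h'.w (P211.VF.mdiff Y p)⟩

variable [IsManifold 𝓘(ℂ, E) 1 M]

/-- the real differential of a holomorphic chart commutes with `i` -/
theorem dm_J (he : e ∈ maximalAtlas 𝓘(ℂ, E) 1 M) {q : M} (hq : q ∈ e.source)
    (v : TangentSpace 𝓘(ℝ, E) q) : dm E e q (J v) = (I • show E from dm E e q v : E) := by
  have h1 : MDifferentiableAt 𝓘(ℂ, E) 𝓘(ℂ, E) e q :=
    ((contMDiffOn_of_mem_maximalAtlas he).contMDiffAt
      (e.open_source.mem_nhds hq)).mdifferentiableAt (by simp)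
  have h2 := h1.hasMFDerivAt
  let L : E →L[ℂ] E := mfderiv 𝓘(ℂ, E) 𝓘(ℂ, E) e q
  have h3 : HasMFDerivAt 𝓘(ℝ, E) 𝓘(ℝ, E) e q (L.restrictScalars ℝ) :=
    ⟨h2.1, HasFDerivWithinAt.restrictScalars ℝ h2.2⟩
  unfold dm
  rw [h3.mfderiv]
  exact L.map_smul I v

theorem J_pull (he : e ∈ maximalAtlas 𝓘(ℂ, E) 1 M) {q : M} (hq : q ∈ e.source) (a : E) :
    J (pull e (cst a) q) = pull e (cst (I • a)) q := by
  have h := chart_ld (mem_maximalAtlas_real he) hq
  refine (inv_of_ld h).injective ?_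
  rw [dm_J he hq, dm_pull h, dm_pull h]
  rfl

theorem coord_J (he : e ∈ maximalAtlas 𝓘(ℂ, E) 1 M) (hz : z ∈ e.target) (h : IsCoord e z C)
    (a : E) : ∀ᶠ q in 𝓝 (e.symm z), J (C a q) = C (I • a) q := by
  filter_upwards [h a, h (I • a), e.open_source.mem_nhds (e.map_target hz)] with q h1 h2 h3
  rw [h2, ← J_pull he h3, h1]

theorem IsYau.herm (hM : IsYau D) (he : e ∈ maximalAtlas 𝓘(ℂ, E) 1 M) (hz : z ∈ e.target)
    (v w : E) : chartG e z (I • v) (I • w) = chartG e z v w := by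
  have he' := mem_maximalAtlas_real he
  obtain ⟨C, h⟩ := exists_coord he' hz
  have h1 := hM.hermitian (e.symm z) (C v (e.symm z)) (C w (e.symm z))
  rw [(coord_J he hz h v).self_of_nhds, (coord_J he hz h w).self_of_nhds] at h1
  exact ((h.g he' hz _ _).eq_of_nhds.symm.trans h1).trans (h.g he' hz _ _).eq_of_nhds

theorem IsYau.dherm (hM : IsYau D) (he : e ∈ maximalAtlas 𝓘(ℂ, E) 1 M) (hz : z ∈ e.target)
    (u v w : E) :
    fderiv ℝ (chartG e) z u (I • v) (I • w) = fderiv ℝ (chartG e) z u v w := by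
  have he' := mem_maximalAtlas_real he
  rw [← fderiv_chartMetric he' hz, ← fderiv_chartMetric he' hz]
  have h : (fun y => chartMetric e y (I • v) (I • w)) =ᶠ[𝓝 z] fun y => chartMetric e y v w := by
    filter_upwards [e.open_target.mem_nhds hz] with y hy using hM.herm he hy v w
  rw [h.fderiv_eq]

theorem IsYau.dclosed (hM : IsYau D) (he : e ∈ maximalAtlas 𝓘(ℂ, E) 1 M) (hz : z ∈ e.target)
    (u v w : E) : fderiv ℝ (chartG e) z u (I • v) w - fderiv ℝ (chartG e) z v (I • u) w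
      + fderiv ℝ (chartG e) z w (I • u) v = 0 := by
  have he' := mem_maximalAtlas_real he
  have hc := hM.leviCivita.lc
  obtain ⟨C, h⟩ := exists_coord he' hz
  have h1 : ∀ a b c : E, mvfderiv 𝓘(ℝ, E) (om (C b) (C c)) (e.symm z) (C a (e.symm z))
      = fderiv ℝ (chartG e) z a (I • b) c := by
    intro a b c
    have h2 : om (C b) (C c) =ᶠ[𝓝 (e.symm z)] P211.gVF (C (I • b)) (C c) := by
      filter_upwards [coord_J he hz h b] with q hq
      rw [P211.gVF_apply, ← hq]
      rfl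
    rw [← fderiv_chartMetric he' hz]
    refine Eq.trans ?_ (h.dg he' hz a (I • b) c).eq_of_nhds
    rw [P211.DVF_apply, mvfderiv, mvfderiv, h2.mfderiv_eq, h2.eq_of_nhds]
  have h2 : ∀ a b c : E, om (mlieBracket 𝓘(ℝ, E) (C a) (C b)) (C c) (e.symm z) = 0 := by
    intro a b c
    have h3 : mlieBracket 𝓘(ℝ, E) (C a) (C b) (e.symm z) = 0 :=
      (congrFun (P211.brk_coe hc (C a) (C b)) _).symm.trans (h.brk hc he' hz a b).self_of_nhds
    have h4 : J (mlieBracket 𝓘(ℝ, E) (C a) (C b) (e.symm z)) = 0 := by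
      rw [h3]
      exact smul_zero (M := ℂ) (A := E) I
    unfold om
    rw [h4, inner_zero_left]
  have h3 := hM.closed (C u) (C v) (C w) (e.symm z)
  unfold dOm at h3
  rw [h1, h1, h1, h2, h2, h2] at h3
  linarith

theorem IsYau.kahler (hM : IsYau D) : IsKahler E M := by
  intro e he z hz
  have he' := mem_maximalAtlas_real he
  have hc := hM.leviCivita.lc
  obtain ⟨C, h⟩ := exists_coord he' hz
  have hG : IsChristoffel e z (gam hc e z C) := h.christoffel hc he' hz
  refine ⟨hM.herm he hz, gam hc e z C, hG, fun u v => ?_⟩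
  set G := gam hc e z C
  have hI : ∀ a : E, I • I • a = -a := fun a => by rw [smul_smul, I_mul_I, neg_one_smul]
  have key : ∀ w, chartG e z (G u (I • v) - I • G u v) w = 0 := by
    intro w
    have h1 := hG u (I • v) w
    have h2 := hG u v (I • w)
    rw [fderiv_chartMetric he' hz, fderiv_chartMetric he' hz, fderiv_chartMetric he' hz,
      ← chartG_apply] at h1 h2
    have h3 := hM.herm he hz (I • G u v) w
    have h4 := hM.dclosed he hz u v w
    have h5 := hM.dclosed he hz u (I • v) (I • w)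
    have h6 := hM.dherm he hz v (I • u) w
    have h7 := hM.dherm he hz w (I • u) v
    have h8 := hM.dherm he hz u (I • v) w
    rw [h8, hM.dherm he hz (I • w), hM.dherm he hz (I • v)] at h5
    rw [hI] at h3 h6 h7 h8
    simp only [map_neg, neg_apply] at h3 h6 h7 h8
    rw [map_sub, sub_apply]
    linarith
  by_contra hne
  exact (chartG_pos he' hz _ (sub_ne_zero.2 hne)).ne' (key _)

theorem secG_smul (G : E → E →L[ℝ] E →L[ℝ] ℝ) (z a b : E) (s t : ℝ) :
    LocalKahler.secG G z (s • a) (t • b)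
      = s ^ 2 * t ^ 2 * LocalKahler.secG G z a b := by
  simp only [LocalKahler.secG, map_smul, smul_apply, smul_eq_mul]
  ring

theorem IsYau.posAt (hM : IsYau D) (x : M) : PosBisectionalAt E x := by
  intro e he hx
  have he' := mem_maximalAtlas_real he
  have hz : e x ∈ e.target := e.map_source hx
  have hc := hM.leviCivita.lc
  set z := e x
  obtain ⟨C, h⟩ := exists_coord he' hz
  have hG : IsChristoffel e z (gam hc e z C) := h.christoffel hc he' hz
  refine ⟨gam hc e z C, hG, fun u v hu hv => ?_⟩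
  have hn : ∀ a : E, a ≠ 0 → ∃ s : ℝ, ‖C (s • a) (e.symm z)‖ = 1 := by
    intro a ha
    have h1 : ds e z a ≠ 0 := fun h0 =>
      ha (mfderiv_symm_injective he' hz (h0.trans (map_zero _).symm))
    refine ⟨‖ds e z a‖⁻¹, ?_⟩
    rw [(h.ev he' hz _).self_of_nhds]
    have h2 : ds e z (‖ds e z a‖⁻¹ • a) = ‖ds e z a‖⁻¹ • ds e z a := map_smul _ _ _
    rw [h2]
    exact norm_smul_inv_norm h1
  obtain ⟨s, hs⟩ := hn u hu
  obtain ⟨t, ht⟩ := hn v hv
  have h1 := hM.pos (e.symm z) _ _ hs ht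
  rw [(coord_J he hz h (t • v)).self_of_nhds, ← hM.leviCivita.tensor,
    ← hM.leviCivita.tensor] at h1
  have h2 : ∀ a b : E, curv D (C a) (C b) (C b) (C a) (e.symm z)
      = LocalKahler.secG (chartG e) z a b :=
    fun a b => (h.sect hc he' hz a b).trans (sectNum_eq he' hz hG a b)
  rw [h2, h2, smul_comm I t v, secG_smul, secG_smul, ← mul_add] at h1
  rw [sectNum_eq he' hz hG, sectNum_eq he' hz hG]
  exact pos_of_mul_pos_left ((mul_comm _ _).subst h1) (mul_nonneg (sq_nonneg s) (sq_nonneg t))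

omit [IsManifold 𝓘(ℂ, E) 1 M] in
theorem IsYau.chart (hM : IsYau D) : P253Z.IsYau E M :=
  haveI := hM.complex
  { complex := hM.complex
    smooth := inferInstance
    dist := hM.dist
    complete := hM.complete
    connected := hM.connected
    noncompact := hM.noncompact
    kahler := hM.kahler
    pos := hM.posAt }

end

end Vale.Agent.P253L26
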