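import Mathlib.Geometry.Manifold.Riemannian.Basic
import Mathlib.Geometry.Manifold.Diffeomorph
import Mathlib.Geometry.Manifold.VectorBundle.CovariantDerivative.Torsion
import Mathlib.Geometry.Manifold.VectorBundle.CovariantDerivative.Metric
import Mathlib.Analysis.Complex.Basic
import Mathlib.LinearAlgebra.Complex.FiniteDimensional
import Mathlib.Analysis.Normed.Module.FiniteDimension

/-! P253: Kähler manifolds and their bisectional curvature, without charts. `M` is modelled on the
complex vector space `E`; the metric, the connection and the vector fields live on the real tangent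
bundle. -/

namespace Vale.Agent.P253L26

open scoped Manifold ContDiff
open Bundle FiberBundle VectorField

noncomputable section

variable (E : Type) [NormedAddCommGroup E] [NormedSpace ℂ E]
  (M : Type) [MetricSpace M] [ChartedSpace E M]

/-- `M` is a smooth real manifold. -/
abbrev RealSmooth : Prop := IsManifold 𝓘(ℝ, E) ∞ M

/-- A scalar product `g` on every tangent space of `M`. -/
abbrev Metr : Type := RiemannianBundle fun p : M => TangentSpace 𝓘(ℝ, E) p

/-- Vector fields (not necessarily smooth). -/
abbrev Field : Type := (p : M) → TangentSpace 𝓘(ℝ, E) p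

variable [RealSmooth E M]

/-- Smooth vector fields. -/
abbrev SmoothField : Type := Cₛ^∞⟮𝓘(ℝ, E); E, (TangentSpace 𝓘(ℝ, E) : M → Type)⟯

/-- Connections on the tangent bundle; `D Y p v` is `∇_v Y` at `p`. -/
abbrev Conn : Type := CovariantDerivative 𝓘(ℝ, E) E (TangentSpace 𝓘(ℝ, E) : M → Type)

variable [Metr E M]

/-- The metric `g` is smooth. -/
abbrev SmoothMetr : Prop :=
  IsContMDiffRiemannianBundle 𝓘(ℝ, E) ∞ E fun p : M => TangentSpace 𝓘(ℝ, E) p

variable {E M}

/-- The complex structure of `T_pM`: multiplication by `i` in the complex tangent space. -/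
def J {p : M} (v : TangentSpace 𝓘(ℝ, E) p) : TangentSpace 𝓘(ℝ, E) p :=
  (Complex.I • show TangentSpace 𝓘(ℂ, E) p from v : TangentSpace 𝓘(ℂ, E) p)

/-- The Kähler form `ω(X, Y) = g(JX, Y)`. -/
def om (X Y : Field E M) (p : M) : ℝ := inner ℝ (J (X p)) (Y p)

/-- The exterior derivative `dω(X, Y, Z)`. -/
def dOm (X Y Z : Field E M) (p : M) : ℝ :=
  mvfderiv 𝓘(ℝ, E) (om Y Z) p (X p) - mvfderiv 𝓘(ℝ, E) (om X Z) p (Y p) +
    mvfderiv 𝓘(ℝ, E) (om X Y) p (Z p) - om (mlieBracket 𝓘(ℝ, E) X Y) Z p +
      om (mlieBracket 𝓘(ℝ, E) X Z) Y p - om (mlieBracket 𝓘(ℝ, E) Y Z) X p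

/-- `g(∇_X ∇_Y Z - ∇_Y ∇_X Z - ∇_[X,Y] Z, W)` at `p`, for vector fields. -/
def curv (D : Conn E M) (X Y Z W : Field E M) (p : M) : ℝ :=
  inner ℝ (D (fun q => D Z q (Y q)) p (X p) - D (fun q => D Z q (X q)) p (Y p) -
    D Z p (mlieBracket 𝓘(ℝ, E) X Y p)) (W p)

/-- The curvature tensor `Rm(a, b, c, d)` on tangent vectors at `p`: `curv` of the extensions
`extend` of the vectors to vector fields that are smooth near `p`. -/
def Rm (D : Conn E M) {p : M} (a b c d : TangentSpace 𝓘(ℝ, E) p) : ℝ :=
  curv D (extend E a) (extend E b) (extend E c) (extend E d) p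

/-- The curvature is a tensor: on smooth fields `curv` is `Rm` of the values at the point. -/
def IsTensor (D : Conn E M) : Prop :=
  ∀ (X Y Z W : SmoothField E M) (p : M), curv D X Y Z W p = Rm D (X p) (Y p) (Z p) (W p)

/-- `D` and `D'` have the same covariant derivatives of smooth vector fields. -/
def Agree (D D' : Conn E M) : Prop := ∀ (Y : SmoothField E M) (p : M), D Y p = D' Y p

variable [FiniteDimensional ℂ E] [SmoothMetr E M]

/-- A Levi-Civita connection of `g`: smooth, torsion free and compatible with the metric. -/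
structure IsLeviCivita (D : Conn E M) : Prop where
  smooth : D.ContMDiffCovariantDerivative ∞
  torsion : D.torsion = 0
  metric : CovariantDerivative.IsMetricCompatible (V := (TangentSpace 𝓘(ℝ, E) : M → Type)) D

/-- `(M, g, J)` is a complete connected noncompact Kähler manifold with positive holomorphic
bisectional curvature, `D` its Levi-Civita connection. -/
structure IsYau (D : Conn E M) : Prop where
  complex : IsManifold 𝓘(ℂ, E) 1 M
  dist : IsRiemannianManifold 𝓘(ℝ, E) M
  complete : CompleteSpace M
  connected : ConnectedSpace M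
  noncompact : NoncompactSpace M
  hermitian : ∀ (p : M) (v w : TangentSpace 𝓘(ℝ, E) p), inner ℝ (J v) (J w) = inner ℝ v w
  closed : ∀ (X Y Z : SmoothField E M) (p : M), dOm X Y Z p = 0
  leviCivita : IsLeviCivita D
  pos : ∀ (p : M) (u v : TangentSpace 𝓘(ℝ, E) p), ‖u‖ = 1 → ‖v‖ = 1 →
    0 < Rm D u v v u + Rm D u (J v) (J v) u

end

end Vale.Agent.P253L26
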